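import Vale.Agent.P344.Final

open Vale.Agent.P344

theorem Vale.Agent.Results.P344.PowerSaving.result :
    (∀ n : ℕ, ComputesDFT n (L n)) ∧
    (∃ C : ℝ, 0 < C ∧ ∀ n : ℕ, 2 ≤ n →
      (L n : ℝ) ≤ C * n * Real.logb 2 n ^ (1 - 1 / (12 * 10 ^ 9) : ℝ)) ∧
    ¬ ∃ c : ℝ, 0 < c ∧ ∃ N : ℕ, ∀ n : ℕ, N ≤ n → c * n * Real.logb 2 n ≤ (L n : ℝ) :=
  ⟨computes_L, L_power, not_lower_bound⟩
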